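import Vale.Agent.P280Z.Rh.Defs
import Vale.Agent.P280Z.Ld.All

/-!
# P280Z, row INT: intersection numbers of line bundles are integers
-/

open scoped Manifold ContDiff Topology
open Set Filter
open Vale.Agent.P272.K Vale.Agent.P285.H281.FD Vale.Agent.P281Z Vale.Agent.P280Z.Ld
open Vale.Agent.P277Z (at_chart)
open Vale.Agent.P277.HD (pull)

noncomputable section

namespace Vale.Agent.P280Z.Rh

namespace IntH

variable {T : CT} {n : ℕ}

theorem ex_cut {V : Mf (n + 1)} {A : Bd V.X} (hA : IsLB (n + 1) A) (h : Bpf (n + 1) A) :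
    ∃ (s : A.ι → V.X → ℂ) (Z : Mf n) (i : Z.X → V.X), Cut A s i := by
  obtain ⟨r, s, h1, h2⟩ := ld.span V A {s | IsSec (n + 1) A s} hA (fun _ k => k) h
  obtain ⟨c, hc⟩ := (ld.ber V A (Fin r) s hA h1 (h2 ▸ countable_empty)
    fun x k => (h2 ▸ k : x ∈ (∅ : Set V.X)).elim).exists
  exact ⟨_, hc⟩

theorem pos_pull (hT : T.OK) {m : ℕ} {V : Mf m} {Z : Mf n} {i : Z.X → V.X} {S : Set V.X}
    (hi : Emb n m i S) {A : Bd V.X} (hA : IsLB m A) (hP : Pos m A) : Pos n (pull i A) := by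
  refine hT.kp Z _ (hi.hol.lb hA) ?_
  rw [hT.c1.pull hi.hol A hA]
  exact hT.po.mono (hT.po.pull hi.hol (hT.c1.pos V A hA hP)) fun z v hv =>
    (injective_iff_map_eq_zero _).1 (hi.imm z _ _ (at_chart _) (at_chart _)) v hv

/-- every class of a line bundle is a difference of base point free classes -/
theorem diff (hT : T.OK) {V : Mf n} {A L : Bd V.X} (hA : IsLB n A) (hP : Pos n A) (hL : IsLB n L) :
    ∃ (M B : Bd V.X) (N : ℕ), IsLB n M ∧ Bpf n M ∧ IsLB n B ∧ Bpf n B ∧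
      T.c1 V L = T.c1 V M - (N : ℝ) • T.c1 V B := by
  obtain ⟨k, r, s, hk, va⟩ := ld.va V A hA hP
  have h1 : T.Kc V (T.c1 V (A.pow k)) := by
    rw [hT.c1.pow V A k hA]
    exact hT.po.smul _ (Nat.cast_pos.2 hk) (hT.c1.pos V A hA hP)
  obtain ⟨c, c0, hc⟩ := hT.po.opn h1
    (T.c1 V L - T.c1 V (Bd.can n V.X) - (n : ℝ) • T.c1 V (A.pow k))
    (sub_mem (sub_mem (hT.tp.c1 V L hL) (hT.tp.c1 V _ P277Z.Slc.isLB_can))
      (Subalgebra.smul_mem _ (hT.tp.c1 V _ va.lb) _))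
    (by rw [CT.Dg, map_sub, map_sub, map_smul, hT.c1.deg, hT.c1.deg, hT.c1.deg])
  obtain ⟨N, hN⟩ := exists_nat_gt c
  have h2 := lb_mul hL (lb_pow va.lb N)
  have h3 : T.c1 V (L.mul ((A.pow k).pow N)) = T.c1 V L + (N : ℝ) • T.c1 V (A.pow k) := by
    rw [hT.c1.mul V _ _ hL (lb_pow va.lb N), hT.c1.pow V _ N va.lb]
  refine ⟨_, _, N, h2, ld.gg T hT V _ _ _ s va h2 ?_, va.lb, va.gen, by rw [h3, add_sub_cancel_right]⟩
  rw [h3, show T.c1 V L + (N : ℝ) • T.c1 V (A.pow k) - T.c1 V (Bd.can n V.X) -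
    (n : ℝ) • T.c1 V (A.pow k) = c • T.c1 V (A.pow k) + (T.c1 V L - T.c1 V (Bd.can n V.X) -
      (n : ℝ) • T.c1 V (A.pow k)) + (N - c) • T.c1 V (A.pow k) by rw [sub_smul]; abel]
  exact hT.po.mono (hT.po.add hc (hT.po.smul _ (sub_pos.2 hN) h1)) fun _ => inf_le_left

end IntH

open IntH in
/-- **row INT** -/
theorem int_ : INT := by
  intro T hT n
  induction n with
  | zero => exact fun V L _ _ => ⟨Nat.card V.X, by
      rw [Fin.prod_univ_zero, hT.rg.int_pt, Int.cast_natCast]⟩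
  | succ n ih =>
    rintro V L ⟨A, hA, hP⟩ hL
    have key : ∀ M, IsLB (n + 1) M → Bpf (n + 1) M →
        ∃ z : ℤ, T.int V (T.c1 V M * ∏ j : Fin n, T.c1 V (L j.succ)) = z := fun M h1 h2 => by
      obtain ⟨s, Z, i, hc⟩ := ex_cut h1 h2
      obtain ⟨z, hz⟩ := ih Z (fun j => pull i (L j.succ))
        ⟨_, hc.emb.hol.lb hA, pos_pull hT hc.emb hA hP⟩ fun j => hc.emb.hol.lb (hL _)
      refine ⟨z, ?_⟩
      rw [hT.pl hc, map_prod, ← hz]
      exact congrArg _ (Finset.prod_congr rfl fun j _ => (hT.c1.pull hc.emb.hol _ (hL _)).symm)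
    obtain ⟨M, B, N, m1, m2, b1, b2, e⟩ := diff hT hA hP (hL 0)
    obtain ⟨z, hz⟩ := key M m1 m2
    obtain ⟨y, hy⟩ := key B b1 b2
    refine ⟨z - N * y, ?_⟩
    rw [Fin.prod_univ_succ, e, sub_mul, smul_mul_assoc, map_sub, map_smul, hz, hy, smul_eq_mul]
    push_cast
    rfl

end Vale.Agent.P280Z.Rh
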