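import Vale.Agent.P280Z.Cv.Sk3
import Vale.Agent.P280Z.Gm.Defs
import Vale.Agent.P280Z.Gp.Defs

/-!
# P280Z, block Rh: several families of rational curves (definitions, the blocks)
-/

open scoped Manifold ContDiff Topology Matrix
open Set Filter
open Vale.Agent.P272.K Vale.Agent.P285.H281.FD Vale.Agent.P281Z
open Vale.Agent.P280Z.Mp (Eqs)

noncomputable section

namespace Vale.Agent.P280Z.Rh

/-- Fano manifolds with nef tangent bundle -/
def Cls (n : ℕ) (V : Mf n) : Prop := Fano n V.X ∧ NefT n V.X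

/-- the push forward of a power of a Kähler class is a Kähler class -/
def KCP (T : CT) : Prop := ∀ {n m d : ℕ} {V : Mf n} {W : Mf m} {f : V.X → W.X}, Sub n m f →
  n = m + d → Function.Surjective f → ∀ w, T.Kc V w → T.Kc W (T.push f (w ^ (d + 1)))

/-- the theory -/
structure Th (T : CT) : Prop where
  ok : T.OK
  hrr : Gm.HRR T
  kcp : KCP T

/-- a connected unsplit family of free rational curves; `dg` is the degree on the curves -/
structure Fm (T : CT) {n : ℕ} (V : Mf n) : Type 1 where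
  k : ℕ
  m : ℕ
  K : Mf k
  U : Mf (k + 1)
  p : U.X → K.X
  e : U.X → V.X
  Tb : Bd U.X
  E : VB U.X
  η : T.H V
  dg : T.H V →ₗ[ℝ] ℝ
  Q : P1D p Tb
  sp : Sub (k + 1) k p
  se : Sub (k + 1) n e
  dim : k + 1 = n + m
  rel : IsRel e m E
  inv : Q.Inv E
  ns : (T.ns sp.hol se.hol η Tb E).OK0 n m
  kη : T.Kc V η
  hdg : ∀ a, T.Dg V 1 a → T.dem sp.hol (T.pull se.hol a) = algebraMap ℝ _ (dg a)
  c1 : dg (T.ps V (VB.tan n V.X) 1) = m + 2
  kU : U.Kah
  kK : K.Kah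
  prj : ∃ L : Bd U.X, IsLB (k + 1) L ∧ Pos (k + 1) L
  cU : ConnectedSpace U.X
  fp : ∀ y, IsConnected (p ⁻¹' {y})
  fe : ∀ x, IsConnected (e ⁻¹' {x})
  tau : ∀ (Z : Mf m) (i : Z.X → U.X) (x : V.X) (h : Emb m (k + 1) i (e ⁻¹' {x})),
    T.Kc Z (T.pull h.hol (-T.c1 U Tb))

variable {T : CT} {n : ℕ} {V : Mf n}

/-- the class `a` is constant along the curves -/
def Fm.Inv (F : Fm T V) (a : T.H V) : Prop := T.dem F.sp.hol (T.pull F.se.hol a) = 0

/-- two points on a curve of one of the families in `S` -/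
def Link {J : Type} (F : J → Fm T V) (S : Set J) (x x' : V.X) : Prop :=
  ∃ j ∈ S, ∃ u u', (F j).p u = (F j).p u' ∧ (F j).e u = x ∧ (F j).e u' = x'

/-- the quotient by the chains of curves of the families in `S` -/
structure Qt {J : Type} (F : J → Fm T V) (S : Set J) : Type 1 where
  y : ℕ
  d : ℕ
  Y : Mf y
  π : V.X → Y.X
  sub : Sub n y π
  dim : n = y + d
  onto : Function.Surjective π
  rel : ∀ x x', π x = π x' ↔ Relation.EqvGen (Link F S) x x'
  fib : ∀ b, IsConnected (π ⁻¹' {b})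
  kah : Y.Kah
  fac : ∀ j ∈ S, ∃ q : (F j).K.X → Y.X, Sub (F j).k y q ∧ ∀ u, q ((F j).p u) = π ((F j).e u)
  s4 : ∀ a, (∀ j ∈ S, (F j).Inv a) ↔ ∃ b, a = T.pull sub.hol b

/-- a system of families whose degrees are coordinates on the classes of degree two -/
structure Bas (T : CT) {n : ℕ} (V : Mf n) : Type 1 where
  J : Type
  [fin : Fintype J]
  [dec : DecidableEq J]
  F : J → Fm T V
  Q : ∀ S : Set J, Qt F S
  H : J → T.H V
  nn : ∀ j, T.Nn V (H j)
  dual : ∀ i j, (F i).dg (H j) = if i = j then 1 else 0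
  span : ∀ a, T.Dg V 1 a → a = ∑ j, (F j).dg a • H j
  pH : ∀ j, ∃ w, T.Kc (Q {j}ᶜ).Y w ∧ H j = T.pull (Q {j}ᶜ).sub.hol w
  kc : ∀ a, T.Dg V 1 a → (∀ j, 0 < (F j).dg a) → T.Kc V a
  kcY : ∀ S b, T.Dg (Q S).Y 1 b → (∀ j, j ∉ S → 0 < (F j).dg (T.pull (Q S).sub.hol b)) →
    T.Kc (Q S).Y b
  cls : ∀ S, Cls (Q S).y (Q S).Y

attribute [instance] Bas.fin Bas.dec

/-- the induction hypothesis -/
def IH (n : ℕ) : Prop := ∀ m < n, ∀ W : Mf m, Cls m W → Gp.Gen m W.X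

/-- **block QUOT** -/
def QUOT : Prop := ∀ T : CT, Th T → ∀ {n : ℕ} (V : Mf n) (J : Type) [Finite J] (F : J → Fm T V)
  (S : Set J), Fano n V.X → Nonempty (Qt F S)

/-- **block NEW**: a family which is not contracted by `π` -/
def NEW : Prop := ∀ T : CT, Th T → ∀ {n y : ℕ} (V : Mf n) (Y : Mf y) (π : V.X → Y.X), Fano n V.X →
  NefRC n V.X → HolM n y π → (∃ x x', π x ≠ π x') →
  ∃ F : Fm T V, ∃ u u', F.p u = F.p u' ∧ π (F.e u) ≠ π (F.e u')

/-- row INT: intersection numbers of line bundles are integers -/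
def INT : Prop := ∀ T : CT, T.OK → ∀ {n : ℕ} (V : Mf n) (L : Fin n → Bd V.X),
  (∃ A : Bd V.X, IsLB n A ∧ Pos n A) → (∀ i, IsLB n (L i)) →
  ∃ z : ℤ, T.int V (∏ i, T.c1 V (L i)) = z

/-- **block BAS** -/
def BAS : Prop := ∀ T : CT, Th T → ∀ {n : ℕ} (V : Mf n), Cls n V → Nonempty (Bas T V)

/-- **block R1**: second Betti number one -/
def R1 : Prop := ∀ T : CT, Th T → ∀ {n : ℕ} (V : Mf n), n ≤ 6 → Fano n V.X → NefRC n V.X →
  Cv.B2T T V → Gp.Gen n V.X

/-- **block PONE**: one of the families is a bundle of projective lines -/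
def PONE : Prop := ∀ T : CT, Th T → ∀ {n : ℕ} (V : Mf n) (B : Bas T V), n ≤ 6 → IH n → Cls n V →
  Nontrivial B.J → (∃ j, (B.F j).m = 0) → Gp.Gen n V.X

/-- **block PTWO**: no family is a bundle of projective lines -/
def PTWO : Prop := ∀ T : CT, Th T → ∀ {n : ℕ} (V : Mf n) (B : Bas T V), n ≤ 6 → IH n → Cls n V →
  Nontrivial B.J → (∀ j, 0 < (B.F j).m) → Gp.Gen n V.X

end Vale.Agent.P280Z.Rh
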