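import Vale.Agent.P280Z.Rh.Sk
import Vale.Agent.P280Z.Ma.Nsx
import Vale.Agent.P280Z.Gm.Fibi
import Vale.Agent.P277Z.Slc.Adj

/-!
# P280Z, block Rh: small lemmas
-/

open scoped Manifold ContDiff Topology Matrix
open Set Filter
open Vale.Agent.P272.K Vale.Agent.P285.H281.FD Vale.Agent.P281Z Vale.Agent.P280Z.Ma
open Vale.Agent.P277 (Bd.inv)

noncomputable section

namespace Vale.Agent.P280Z.Rh

variable {T : CT} {n y d : ℕ} {V : Mf n} {Y : Mf y}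

theorem at_ch (x : V.X) : At (chartAt (Cm n) x) x := ⟨chart_mem_atlas _ _, mem_chart_source _ _⟩

theorem lb_inv {L : Bd V.X} (h : IsLB n L) : IsLB n (Bd.inv L) where
  isOpen := h.isOpen
  cover := h.cover
  holo i j e x he hi hj := (h.holo i j e x he hi hj).inv (by
    rw [e.left_inv he.2]
    exact h.ne_zero i j x hi hj)
  ne_zero i j x hi hj := inv_ne_zero (h.ne_zero i j x hi hj)
  cocycle i j k x hi hj hk := (mul_inv _ _).symm.trans (congrArg _ (h.cocycle i j k x hi hj hk))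

theorem lb_can (V : Mf n) : IsLB n (Bd.can n V.X) := P277Z.Slc.isLB_can

theorem c1_inv (hT : T.OK) {L : Bd V.X} (h : IsLB n L) : T.c1 V (Bd.inv L) = -T.c1 V L := by
  refine eq_neg_of_add_eq_zero_right ?_
  rw [← hT.c1.mul V _ _ h (lb_inv h)]
  refine hT.c1.triv V _ (fun a x => L.g a.1 a.2 x) (lb_mul h (lb_inv h))
    ⟨fun a e x he ha => h.holo a.1 a.2 e x he ha.1 ha.2, fun a b x ha hb => ?_⟩
    fun x a ha => h.ne_zero _ _ x ha.1 ha.2
  show L.g a.1 a.2 x = L.g a.1 b.1 x * (L.g a.2 b.2 x)⁻¹ * L.g b.1 b.2 x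
  rw [mul_right_comm, h.cocycle _ _ _ x ha.1 hb.1 hb.2, ← h.cocycle _ _ _ x ha.1 ha.2 hb.2,
    mul_inv_cancel_right₀ (h.ne_zero _ _ x ha.2 hb.2)]

/-- the first Chern class of the manifold -/
abbrev cX (T : CT) {n : ℕ} (V : Mf n) : T.H V := T.ps V (VB.tan n V.X) 1

theorem c1_acan (hT : T.OK) (V : Mf n) : T.c1 V (Bd.inv (Bd.can n V.X)) = cX T V := by
  rw [c1_inv hT (lb_can V), cX, hT.ch.tan]

theorem dg_cX (hT : T.OK) (V : Mf n) : T.Dg V 1 (cX T V) := hT.ch.deg V _ 1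

theorem fano_iff (hT : T.OK) (V : Mf n) :
    Fano n V.X ↔ ConnectedSpace V.X ∧ T.Kc V (cX T V) := by
  rw [← c1_acan hT]
  exact and_congr_right fun _ =>
    ⟨hT.c1.pos V _ (lb_inv (lb_can V)), hT.kp V _ (lb_inv (lb_can V))⟩

theorem fa_of (hT : T.OK) (h : Fano n V.X) : Gm.Fa T V := by
  have := ((fano_iff hT V).1 h).2
  rwa [cX, hT.ch.tan] at this

theorem kc_nn (hT : T.OK) {w : T.H V} (h : T.Kc V w) : T.Nn V w := hT.po.mono h fun _ => le_top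

theorem nn_wp (hT : T.OK) {w : T.H V} (h : T.Nn V w) : w ∈ T.Wp V :=
  mul_one w ▸ hT.po.wp_mul h (hT.po.wp_one V)

theorem nn_ty (hT : T.OK) {w : T.H V} (h : T.Nn V w) : w ∈ T.Ty V := hT.tp.wp (nn_wp hT h)

theorem wp_pow (hT : T.OK) {w b : T.H V} (h : T.Nn V w) (hb : b ∈ T.Wp V) (k : ℕ) :
    w ^ k * b ∈ T.Wp V := by
  induction k with
  | zero => rwa [pow_zero, one_mul]
  | succ k ih => rw [pow_succ', mul_assoc]; exact hT.po.wp_mul h ih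

theorem nn_add (hT : T.OK) {a b : T.H V} (ha : T.Nn V a) (hb : T.Nn V b) : T.Nn V (a + b) :=
  hT.po.mono (hT.po.add ha hb) fun _ => le_top

theorem nn_smul (hT : T.OK) {a : T.H V} (ha : T.Nn V a) {c : ℝ} (hc : 0 ≤ c) : T.Nn V (c • a) := by
  rcases hc.eq_or_lt with rfl | hc
  · rw [zero_smul]; exact hT.po.zero V
  · exact hT.po.smul c hc ha

theorem nn_sum (hT : T.OK) {α : Type} (s : Finset α) {a : α → T.H V} (h : ∀ i ∈ s, T.Nn V (a i)) :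
    T.Nn V (∑ i ∈ s, a i) :=
  Finset.sum_induction a _ (fun _ _ => nn_add hT) (hT.po.zero V) h

theorem alg_inj (hT : T.OK) (h : V.Kah) (x : V.X) {c c' : ℝ}
    (e : algebraMap ℝ (T.H V) c = algebraMap ℝ _ c') : c = c' := by
  obtain ⟨w, hw⟩ := (hT.po.kah V).1 h
  have k := congrArg (fun a => T.int V (a * w ^ n)) e
  simp only [← Algebra.smul_def, map_smul, smul_eq_mul] at k
  exact mul_right_cancel₀ (kc_vol hT hw x).ne' k

/-- the volume of the fibres -/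
theorem push_vol (hT : T.OK) {π : V.X → Y.X} (h : Sub n y π) (hd : n = y + d)
    (hs : Function.Surjective π) (hc : ConnectedSpace Y.X) {w : T.H V} (hw : T.Kc V w) :
    ∃ D : ℝ, 0 < D ∧ T.push π (w ^ d) = algebraMap ℝ _ D := by
  obtain ⟨D, hD⟩ := hT.rg.h0 Y inferInstance (T.push π (w ^ d)) (by
    rw [CT.Dg, hT.pu.deg h d hd, zero_add, dg_pow hT (hT.po.deg hw) d])
  obtain ⟨b⟩ : Nonempty Y.X := inferInstance
  obtain ⟨⟨F, i, hi⟩, k⟩ := Gm.fibi T hT π b hd h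
  obtain ⟨x, hx⟩ := hs b
  obtain ⟨z, -⟩ := hi.ex (show x ∈ π ⁻¹' {b} from hx)
  refine ⟨D, ?_, hD⟩
  rw [← k F i hi _ _ hD, map_pow]
  exact kc_vol hT (kc_pull hT hi.hol (fun z v hv => hi.imm z _ _ (at_ch _)
    (at_ch _) (hv.trans (map_zero _).symm)) hw) z

theorem pull_inj (hT : T.OK) {π : V.X → Y.X} (h : Sub n y π) (hd : n = y + d)
    (hs : Function.Surjective π) (hc : ConnectedSpace Y.X) (hV : V.Kah) {b : T.H Y}
    (e : T.pull h.hol b = 0) : b = 0 := by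
  obtain ⟨w, hw⟩ := (hT.po.kah V).1 hV
  obtain ⟨D, hD, k⟩ := push_vol hT h hd hs hc hw
  have := hT.pu.proj h (w ^ d) b
  rw [e, mul_zero, map_zero, k, ← Algebra.smul_def] at this
  exact (smul_eq_zero.1 this.symm).resolve_left hD.ne'

theorem nn_desc (hT : T.OK) {π : V.X → Y.X} (h : Sub n y π) (hd : n = y + d)
    (hs : Function.Surjective π) (hc : ConnectedSpace Y.X) (hV : V.Kah) {b : T.H Y}
    (hb : T.Dg Y 1 b) (e : T.Nn V (T.pull h.hol b)) : T.Nn Y b := by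
  obtain ⟨w, hw⟩ := (hT.po.kah V).1 hV
  obtain ⟨D, hD, k⟩ := push_vol hT h hd hs hc hw
  have h1 := hT.po.wp_push h (wp_pow hT (kc_nn hT hw) (nn_wp hT e) d)
  rw [hT.pu.proj h, k, ← Algebra.smul_def] at h1
  have h2 := nn_smul hT (hT.po.wp_nn h1 (by rw [CT.Dg, map_smul, hb])) (inv_pos.2 hD).le
  rwa [smul_smul, inv_mul_cancel₀ hD.ne', one_smul] at h2

namespace Fm
variable (F : Fm T V)

theorem ne : Nonempty F.U.X := F.cU.toNonempty

theorem inv_iff (hT : T.OK) {a : T.H V} (ha : T.Dg V 1 a) : F.Inv a ↔ F.dg a = 0 := by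
  obtain ⟨x⟩ := F.ne
  rw [Inv, F.hdg a ha]
  exact ⟨fun e => alg_inj hT F.kU x (e.trans (map_zero _).symm), fun e => by rw [e, map_zero]⟩

theorem dg_η (hT : T.OK) : F.dg F.η = 1 := by
  obtain ⟨x⟩ := F.ne
  refine alg_inj hT F.kU x ?_
  rw [← F.hdg F.η F.ns.dη, map_one]
  exact F.ns.Tη

theorem dg_nn (hT : T.OK) {a : T.H V} (ha : T.Nn V a) : 0 ≤ F.dg a := by
  obtain ⟨x⟩ := F.ne
  obtain ⟨w, hw⟩ := (hT.po.kah F.U).1 F.kU
  have h1 := hT.po.wp_int (wp_pow hT (kc_nn hT hw) (hT.po.wp_pull F.sp.hol (hT.po.wp_push F.sp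
    (nn_wp hT (nn_pull hT F.se.hol ha)))) (F.k + 1))
  have h2 := F.hdg a (hT.po.deg ha)
  change T.pull _ (T.push _ _) = _ at h2
  rw [h2, mul_comm, ← Algebra.smul_def, map_smul, smul_eq_mul] at h1
  exact nonneg_of_mul_nonneg_left h1 (kc_vol hT hw x)

theorem dg_pos (hT : T.OK) {a : T.H V} (ha : T.Kc V a) : 0 < F.dg a := by
  obtain ⟨c, hc, k⟩ := hT.po.opn ha (-F.η) (neg_mem (nn_ty hT (kc_nn hT F.kη)))
    (by rw [CT.Dg, map_neg, hT.po.deg F.kη])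
  have := F.dg_nn hT (kc_nn hT k)
  rw [map_add, map_smul, map_neg, F.dg_η hT, smul_eq_mul] at this
  exact (mul_pos_iff_of_pos_left hc).1 (by linarith)

end Fm

namespace Qt
variable {J : Type} {F : J → Fm T V} {S : Set J} (Q : Qt F S)

theorem conn (h : ConnectedSpace V.X) : ConnectedSpace Q.Y.X := Q.onto.connectedSpace Q.sub.hol.cont

theorem dg_pull (hT : T.OK) {j : J} (hj : j ∈ S) {b : T.H Q.Y} (hb : T.Dg Q.Y 1 b) :
    (F j).dg (T.pull Q.sub.hol b) = 0 :=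
  ((F j).inv_iff hT (Ma.dg_pull hT _ hb)).1 ((Q.s4 _).2 ⟨b, rfl⟩ j hj)

theorem ex_dg (hT : T.OK) {k : ℕ} {a : T.H V} (ha : T.Dg V k a) (h : ∀ j ∈ S, (F j).Inv a) :
    ∃ b, T.Dg Q.Y k b ∧ a = T.pull Q.sub.hol b := by
  obtain ⟨b, rfl⟩ := (Q.s4 a).1 h
  exact ⟨T.pr Q.Y k b, (hT.rg.pr_pr _ k k b).trans (if_pos rfl), by rw [hT.rg.pull_pr, ha]⟩

theorem ex1 (hT : T.OK) {a : T.H V} (ha : T.Dg V 1 a) (h : ∀ j ∈ S, (F j).dg a = 0) :
    ∃ b, T.Dg Q.Y 1 b ∧ a = T.pull Q.sub.hol b :=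
  Q.ex_dg hT ha fun j hj => ((F j).inv_iff hT ha).2 (h j hj)

/-- the powers of a class of degree zero on the curves vanish -/
theorem pow_zero' (hT : T.OK) {a : T.H V} (ha : T.Dg V 1 a) (h : ∀ j ∈ S, (F j).dg a = 0) {k : ℕ}
    (hk : Q.y < k) : a ^ k = 0 := by
  obtain ⟨b, hb, rfl⟩ := Q.ex1 hT ha h
  rw [← map_pow, ← dg_pow hT hb k, hT.rg.pr_zero _ _ _ hk, map_zero]

end Qt

end Vale.Agent.P280Z.Rh
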