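import Vale.Agent.P280Z.Rh.Sk
import Vale.Agent.P281Z.Mf.Adj
import Vale.Agent.P281Z.Mf.An
import Vale.Agent.P281Z.Sc.Bd

/-!
# P280Z, block Rh: row FANQ, the Jacobian section
-/

open scoped Manifold ContDiff Topology Matrix
open Set Filter Function
open Vale.Agent.P272.K Vale.Agent.P285.H281.FD Vale.Agent.P281Z
open Vale.Agent.P277Z (Hol at_chart hol_const)
open Vale.Agent.P277Z.Slc (isLB_can)
open Vale.Agent.P277.HD (pull)
open Vale.Agent.P277 (Bd.inv)

noncomputable section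

namespace Vale.Agent.P280Z.Rh

namespace Jac

variable {T : CT} {n y k r l : ℕ} {U : Mf n} {Y : Mf y} {K : Mf k} {C : Mf l} {f : U.X → Y.X}
  {p : U.X → K.X} {i : C.X → U.X} {L : Bd U.X}

theorem lb_inv (h : IsLB n L) : IsLB n (Bd.inv L) where
  isOpen := h.isOpen
  cover := h.cover
  holo _ _ e _ he ha hb := ((lb_hol h ha hb).inv (h.ne_zero _ _ _ ha hb) e he).contDiffAt
  ne_zero a b x ha hb := inv_ne_zero (h.ne_zero a b x ha hb)
  cocycle a b c x ha hb hc := (mul_inv _ _).symm.trans (congrArg _ (h.cocycle a b c x ha hb hc))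

theorem c1_inv (hT : T.OK) (h : IsLB n L) : T.c1 U (Bd.inv L) = -T.c1 U L := by
  refine eq_neg_of_add_eq_zero_right ((hT.c1.mul U _ _ h (lb_inv h)).symm.trans
    (hT.c1.triv U _ (fun a x => L.g a.1 a.2 x) (lb_mul h (lb_inv h))
      (isSec_of (fun a x ha => lb_hol h ha.1 ha.2) fun a b x ha hb => ?_)
      fun x a ha => h.ne_zero _ _ x ha.1 ha.2))
  show _ = L.g a.1 b.1 x * (L.g a.2 b.2 x)⁻¹ * _
  rw [mul_right_comm, h.cocycle _ _ _ x ha.1 hb.1 hb.2, ← h.cocycle _ _ _ x ha.1 ha.2 hb.2,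
    mul_inv_cancel_right₀ (h.ne_zero _ _ x ha.2 hb.2)]

/-- a section which is not zero somewhere has a dense set of points where it is not zero -/
theorem dense_nz [PreconnectedSpace U.X] (hL : IsLB n L) {s : L.ι → U.X → ℂ} (hs : IsSec n L s)
    {a : L.ι} {x : U.X} (ha : x ∈ L.U a) (h0 : s a x ≠ 0) : Dense {x | NZ L s x} := by
  have hA : An n {x | ¬ NZ L s x} := fun x => (hL.cover x).elim fun a ha =>
    ⟨1, fun _ => s a, fun _ => sec_hol hs ha, (lb_near hL ha).mono fun y hy =>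
      (((nz_iff hL (fun a b => hs.change a b y) hy).not).trans not_not).trans
        (forall_const _).symm⟩
  have := (hA.thin fun e => eq_univ_iff_forall.1 e x
    ((nz_iff hL (fun a b => hs.change a b x) ha).2 h0)).dense
  simpa only [compl_ofPred, not_not] using this

/-- the relative canonical bundle -/
def Kr (f : U.X → Y.X) : Bd U.X := (Bd.can n U.X).mul (pull f (Bd.inv (Bd.can y Y.X)))

theorem lb_Kr (hf : HolM n y f) : IsLB n (Kr f) := lb_mul isLB_can (hf.lb (lb_inv isLB_can))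

theorem c1_Kr (hT : T.OK) (hf : HolM n y f) : T.c1 U (Kr f) =
    T.pull hf (T.ps Y (VB.tan y Y.X) 1) - T.ps U (VB.tan n U.X) 1 := by
  rw [Kr, hT.c1.mul U _ _ isLB_can (hf.lb (lb_inv isLB_can)), hT.c1.pull hf _ (lb_inv isLB_can),
    c1_inv hT isLB_can, hT.ch.tan, hT.ch.tan]
  ring

/-- the Jacobian determinant of `(f, q ∘ χ ∘ p)` along `i` -/
def js (σ : Fin y ⊕ Fin r ≃ Fin n) (q : Matrix (Fin r) (Fin k) ℂ) (f : U.X → Y.X) (p : U.X → K.X)
    (χ : Chart k K.X) (i : C.X → U.X) (c : Chart n U.X × Chart y Y.X) (z : C.X) : ℂ :=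
  detR σ (dfM f c.1 c.2 (i z)) (q * dfM p c.1 χ (i z))

/-- **the Jacobian section** -/
theorem js_sec (σ : Fin y ⊕ Fin r ≃ Fin n) (q : Matrix (Fin r) (Fin k) ℂ) (hf : HolM n y f)
    (hp : HolM n k p) (hi : HolM l n i) {χ : Chart k K.X} (hχ : ∀ z, At χ (p (i z))) :
    IsSec l (pull i (Kr f)) (js σ q f p χ i) := by
  refine isSec_of (fun c z hz => hol_det fun a b => ?_) fun c d z hc hd => ?_
  · simp only [Matrix.submatrix_apply, id]
    rcases σ.symm a with a | a
    · exact hi.hol (hol_dfM (hf.at _) hz.1 hz.2 a b)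
    · simp only [Matrix.fromRows_apply_inr, Matrix.mul_apply]
      exact Hol.sum _ fun j _ => (hol_const _ _).mul (hi.hol (hol_dfM (hp.at _) hz.1 (hχ z) j b))
  · show detR σ (dfM f c.1 c.2 (i z)) (q * dfM p c.1 χ (i z)) =
      (jacM c.1 d.1 (i z)).det * (jacM c.2 d.2 (f (i z))).det⁻¹ *
        detR σ (dfM f d.1 d.2 (i z)) (q * dfM p d.1 χ (i z))
    rw [dfM_chg (hf.at _) hd.1 hc.1 hc.2, dfM_chg (hp.at _) hd.1 hc.1 (hχ z),
      ← Matrix.mul_assoc, detR_mul, dfM_chg' (hf.at _) hd.1 hc.2 hd.2, detR_left, mul_assoc,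
      inv_mul_cancel_left₀ (jacM_det_ne_zero hc.2 hd.2), mul_comm]

theorem ex_q (σ : Fin y ⊕ Fin r ≃ Fin n) {A : Matrix (Fin y) (Fin n) ℂ}
    {B : Matrix (Fin k) (Fin n) ℂ} (hA : Surjective A.mulVec)
    (h : ∀ v, A *ᵥ v = 0 → B *ᵥ v = 0 → v = 0) :
    ∃ q : Matrix (Fin r) (Fin k) ℂ, detR σ A (q * B) ≠ 0 := by
  have h1 := (Matrix.toLin' A).finrank_range_add_finrank_ker
  rw [LinearMap.range_eq_top.2 hA, finrank_top, Module.finrank_fin_fun,
    Module.finrank_fin_fun] at h1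
  have h2 := Fintype.card_congr σ
  rw [Fintype.card_sum, Fintype.card_fin, Fintype.card_fin, Fintype.card_fin] at h2
  let φ := LinearEquiv.ofFinrankEq (R := ℂ) (LinearMap.ker (Matrix.toLin' A)) (Cm r)
    (by rw [Module.finrank_fin_fun]; omega)
  obtain ⟨g, hg⟩ := ((Matrix.toLin' B).comp (LinearMap.ker (Matrix.toLin' A)).subtype
    ).exists_leftInverse_of_injective (LinearMap.ker_eq_bot'.2 fun v hv =>
      Subtype.ext (h v.1 v.2 hv))
  refine ⟨LinearMap.toMatrix' (φ.toLinearMap.comp g), fun h0 => ?_⟩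
  obtain ⟨v, v0, hv⟩ := Matrix.exists_mulVec_eq_zero_iff.2 h0
  have h3 : Matrix.fromRows A (LinearMap.toMatrix' (φ.toLinearMap.comp g) * B) *ᵥ v = 0 :=
    funext fun a => by simpa [Matrix.mulVec] using congrFun hv (σ a)
  rw [Matrix.fromRows_mulVec] at h3
  have h4 : A *ᵥ v = 0 := funext fun a => congrFun h3 (.inl a)
  have h5 : (LinearMap.toMatrix' (φ.toLinearMap.comp g) * B) *ᵥ v = 0 :=
    funext fun a => congrFun h3 (.inr a)
  rw [← Matrix.mulVec_mulVec, LinearMap.toMatrix'_mulVec] at h5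
  have h6 : g (B *ᵥ v) = ⟨v, h4⟩ := LinearMap.congr_fun hg ⟨v, h4⟩
  exact v0 (congrArg Subtype.val (h6.symm.trans (φ.map_eq_zero_iff.1 h5)))

/-- a holomorphic map with differential zero is constant -/
theorem const_of [PreconnectedSpace U.X] (hf : HolM n y f) (h : ∀ x, Df n y f x = 0) (x x' : U.X) :
    f x = f x' := by
  have he := at_chart (n := n) x
  have he' := at_chart (n := y) (f x)
  generalize chartAt (Cm n) x = e at he
  generalize chartAt (Cm y) (f x) = e' at he'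
  obtain ⟨ε, h0, hε⟩ := Metric.eventually_nhds_iff_ball.1
    (he.nhds_target.and (at_map (hf.at x).cont he he'))
  have h1 : ∀ z ∈ Metric.ball (e x) ε, HasFDerivAt (fun z => e' (f (e.symm z)))
      (0 : Cm n →L[ℂ] Cm y) z := fun z hz => by
    have a := At.of_target he.1 (hε z hz).1
    have b := ((hf.at _).an a (hε z hz).2).differentiableAt.hasFDerivAt
    have c := df_chart (hf.at _) (at_chart _) a (at_chart _) (hε z hz).2
    rw [show df f (chartAt (Cm n) (e.symm z)) (chartAt (Cm y) (f (e.symm z))) (e.symm z) = 0 from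
      ContinuousLinearMap.ext (LinearMap.congr_fun (h _)), ContinuousLinearMap.zero_comp,
      ContinuousLinearMap.comp_zero, df] at c
    rwa [c, e.right_inv (hε z hz).1] at b
  refine (congrFun (hf.eq_of_ev (holM_const (f x)) (x := x) ?_) x').symm
  filter_upwards [(e.continuousAt he.2).eventually (Metric.ball_mem_nhds _ h0), at_near he,
    (hf.at x).cont.eventually (at_near he')] with u h2 h3 h4
  have := Metric.isOpen_ball.is_const_of_fderiv_eq_zero (𝕜 := ℂ) (convex_ball _ _).isPreconnected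
    (fun z hz => (h1 z hz).differentiableAt.differentiableWithinAt) (fun z hz => (h1 z hz).fderiv)
    h2 (Metric.mem_ball_self h0)
  rw [h3.left_inv, he.left_inv] at this
  exact e'.injOn h4.2 he'.2 this

/-- the degree of the relative canonical bundle along a curve in a fibre of `p` -/
theorem deg_nn (hT : T.OK) {C : Mf 1} [PreconnectedSpace C.X] {i : C.X → U.X} (hf : HolM n y f)
    (hp : HolM n k p) (hi : HolM 1 n i) {b : K.X} (hb : ∀ z, p (i z) = b) (z : C.X)
    (hs : Sbm n y f (i z)) (h : ∀ v, Df n y f (i z) v = 0 → Df n k p (i z) v = 0 → v = 0) :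
    T.int C (T.pull hi (T.ps U (VB.tan n U.X) 1)) ≤
      T.int C (T.pull hi (T.pull hf (T.ps Y (VB.tan y Y.X) 1))) := by
  obtain ⟨r, rfl⟩ := Nat.exists_eq_add_of_le hs.le
  have hc : At (chartAt (Cm (y + r)) (i z)) (i z) ∧ At (chartAt (Cm y) (f (i z))) (f (i z)) :=
    ⟨at_chart _, at_chart _⟩
  obtain ⟨q, hq⟩ := ex_q finSumFinEquiv
    (A := dfM f (chartAt (Cm (y + r)) (i z)) (chartAt (Cm y) (f (i z))) (i z))
    (B := dfM p (chartAt (Cm (y + r)) (i z)) (chartAt (Cm k) (p (i z))) (i z))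
    (fun w => (hs _ _ hc.1 hc.2 w).imp fun v hv => (dfM_mulVec v).trans hv)
    fun v h1 h2 => h v ((dfM_mulVec v).symm.trans h1) ((dfM_mulVec v).symm.trans h2)
  have s1 := js_sec finSumFinEquiv q hf hp hi (χ := chartAt (Cm k) (p (i z))) fun z' => by
    rw [hb z', hb z]
    exact at_chart _
  have lb := hi.lb (lb_Kr hf)
  have k := (hT.eff C _ _ 0 Fin.elim0 rfl lb s1 (dense_nz lb s1
    (a := (chartAt (Cm (y + r)) (i z), chartAt (Cm y) (f (i z)))) (x := z) hc hq)
    fun j => j.elim0).1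
  rwa [Fin.prod_univ_zero, mul_one, hT.c1.pull hi _ (lb_Kr hf), c1_Kr hT hf, map_sub, map_sub,
    sub_nonneg] at k

end Jac

open Jac in
/-- **row FANQ** -/
theorem fanq_of (hD : DGF) : FANQ := by
  rintro T hT n y V F Y π h ⟨u, u', h1, h2⟩
  obtain ⟨C, i, hi, hc, -, -, k1, k2⟩ := hD T hT F (F.p u)
  have hf := h.hol.comp F.se.hol
  have hb : ∀ z, F.p (i z) = F.p u := fun z => hi.rng.subset ⟨z, rfl⟩
  obtain ⟨a, rfl⟩ : u ∈ range i := hi.rng.superset rfl
  obtain ⟨a', rfl⟩ : u' ∈ range i := hi.rng.superset h1.symm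
  obtain ⟨z, hz⟩ := not_forall.1 fun c => h2 (const_of (hf.comp hi.hol) c a a')
  obtain ⟨w, hw⟩ := not_forall.1 fun c => hz (LinearMap.ext c)
  have e1 := DFunLike.congr_fun (df_comp (hf.at _) (hi.hol.at z) (at_chart _) (at_chart _)
    (at_chart _)) w
  have e2 := DFunLike.congr_fun (df_comp (F.sp.hol.at _) (hi.hol.at z) (at_chart _) (at_chart _)
    (at_chart _)) w
  rw [show (fun x => F.p (i x)) = fun _ => F.p (i a) from funext hb] at e2
  have e3 : Df (F.k + 1) F.k F.p (i z) (Df 1 (F.k + 1) i z w) = 0 := e2.symm.trans (by simp [df])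
  have e4 : Df (F.k + 1) y (fun x => π (F.e x)) (i z) (Df 1 (F.k + 1) i z w) ≠ 0 :=
    fun c => hw (e1.trans c)
  generalize Df 1 (F.k + 1) i z w = v at e3 e4
  have e5 := (Df (F.k + 1) F.k F.p (i z)).finrank_range_add_finrank_ker
  rw [(LinearMap.range_eq_top (f := Df (F.k + 1) F.k F.p (i z))).2
    (F.sp.sbm _ _ _ (at_chart _) (at_chart _)), finrank_top,
    Module.finrank_fin_fun, Module.finrank_fin_fun, add_right_inj,
    finrank_eq_one_iff_of_nonzero' (⟨v, e3⟩ : LinearMap.ker _) fun c => e4 (by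
      rw [show v = 0 from congrArg Subtype.val c, map_zero])] at e5
  have k := deg_nn hT hf F.sp.hol hi.hol hb z
    (Sbm.comp (h.hol.at _) (F.se.hol.at _) (h.sbm _) (F.se.sbm _)) fun t t1 t2 => by
      obtain ⟨c, e6⟩ := e5 ⟨t, t2⟩
      obtain rfl : c • v = t := congrArg Subtype.val e6
      rw [map_smul, smul_eq_zero_iff_left e4] at t1
      rw [t1, zero_smul]
  rwa [k1, hT.rg.pull_comp F.se.hol h.hol hf (fun _ => rfl), k2] at k
  exact (hT.rg.pull_pr h.hol 1 _).symm.trans (congrArg _ (hT.ch.deg Y _ 1))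

end Vale.Agent.P280Z.Rh
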