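import Vale.Agent.P280Z.Rh.Sk
import Vale.Agent.P280Z.Ma.Nsx
import Vale.Agent.P280Z.Ma.Rel
import Vale.Agent.P280Z.Gm.Fibi
import Vale.Agent.P280Z.Co.Vbl
import Vale.Agent.P281Z.Mf.An

/-!
# P280Z, block Rh: the degree on the curves of a family
-/

open scoped Manifold ContDiff Topology Matrix
open Set Filter
open Vale.Agent.P272.K Vale.Agent.P285.H281.FD Vale.Agent.P281Z
open Vale.Agent.P277Z (at_chart)

noncomputable section

namespace Vale.Agent.P280Z.Rh

namespace Dgf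

variable {T : CT}

theorem alg_inj (hT : T.OK) {n : ℕ} {V : Mf n} (h : V.Kah) (x : V.X) {c c' : ℝ}
    (k : algebraMap ℝ (T.H V) c = algebraMap ℝ _ c') : c = c' := by
  obtain ⟨w, hw⟩ := (hT.po.kah V).1 h
  have h1 := congrArg (fun a => T.int V (a * w ^ n)) k
  simp only [← Algebra.smul_def, map_smul, smul_eq_mul] at h1
  exact mul_right_cancel₀ (Ma.kc_vol hT hw x).ne' h1

theorem push_eq (hT : T.OK) {n : ℕ} {V : Mf n} (F : Fm T V) {a : T.H F.U} (ha : T.Dg F.U 1 a)
    {c : ℝ} (h : T.dem F.sp.hol a = algebraMap ℝ _ c) : T.push F.p a = algebraMap ℝ _ c := by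
  have := F.cU
  have hK : PreconnectedSpace F.K.X := ⟨by
    have h1 : range F.p = univ := eq_univ_of_forall fun y => (F.fp y).nonempty
    exact h1 ▸ isPreconnected_range F.sp.hol.cont⟩
  obtain ⟨c', hc⟩ := hT.rg.h0 F.K hK (T.push F.p a) (by
    unfold CT.Dg at ha ⊢
    rw [hT.pu.deg F.sp 1 rfl, zero_add, ha])
  have h2 : T.pull F.sp.hol (T.push F.p a) = algebraMap ℝ _ c := h
  rw [hc, AlgHom.commutes] at h2
  rw [hc, alg_inj hT F.kU (Classical.arbitrary _) h2]

/-- a holomorphic map with vanishing differential is constant -/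
theorem const {d y : ℕ} {C : Mf d} {Y : Mf y} {g : C.X → Y.X} (hC : PreconnectedSpace C.X)
    (hg : HolM d y g) (h : ∀ z, Df d y g z = 0) (z z' : C.X) : g z' = g z := by
  have he := at_chart (n := d) z
  have he' := at_chart (n := y) (g z)
  refine congrFun (hg.eq_of_ev (holM_const (g z)) (x := z) ?_) z'
  have h1 : ∀ᶠ w in 𝓝 (chartAt (Cm d) z z), DifferentiableAt ℂ
      (fun w => chartAt (Cm y) (g z) (g ((chartAt (Cm d) z).symm w))) w ∧
      fderiv ℂ (fun w => chartAt (Cm y) (g z) (g ((chartAt (Cm d) z).symm w))) w = 0 := by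
    filter_upwards [((hg.at z).an he he').eventually_analyticAt, at_ev he (at_near he),
      at_map hg.cont.continuousAt he he',
      (chartAt (Cm d) z).open_target.mem_nhds ((chartAt (Cm d) z).map_source he.2)] with w a b c k
    refine ⟨a.differentiableAt, ?_⟩
    have h2 := df_chart (hg.at _) (at_chart _) b (at_chart _) c
    have h3 : df g (chartAt (Cm d) ((chartAt (Cm d) z).symm w)) (chartAt (Cm y)
        (g ((chartAt (Cm d) z).symm w))) ((chartAt (Cm d) z).symm w) = 0 :=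
      ContinuousLinearMap.coe_injective (h _)
    rw [h3, ContinuousLinearMap.zero_comp, ContinuousLinearMap.comp_zero, df,
      (chartAt (Cm d) z).right_inv k] at h2
    exact h2
  obtain ⟨r, hr, h2⟩ := Metric.eventually_nhds_iff_ball.1 h1
  filter_upwards [at_near he, hg.cont.continuousAt.eventually (at_near he'),
    ((chartAt (Cm d) z).continuousAt he.2).eventually (Metric.ball_mem_nhds _ hr)] with w a b c
  have h3 := Metric.isOpen_ball.is_const_of_fderiv_eq_zero (convex_ball _ _).isPreconnected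
    (fun v hv => (h2 v hv).1.differentiableWithinAt) (fun v hv => (h2 v hv).2) c
    (Metric.mem_ball_self hr)
  simp only [(chartAt (Cm d) z).left_inv a.2, (chartAt (Cm d) z).left_inv he.2] at h3
  exact (chartAt (Cm y) (g z)).injOn b.2 he'.2 h3

end Dgf

open Dgf

theorem dgf : DGF := by
  intro T hT n V F y
  obtain ⟨⟨C, i, hi⟩, h⟩ := Gm.fibi T hT (d := 1) F.p y rfl F.sp
  have t2 : T.dem F.sp.hol (T.c1 F.U F.Tb) = algebraMap ℝ _ 2 :=
    F.ns.Tτ.trans (map_ofNat (algebraMap ℝ (T.H F.U)) 2).symm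
  obtain ⟨w, hw⟩ := (hT.po.kah _).1 F.kU
  refine ⟨C, i, hi, hi.conn.2 (F.fp y), (hT.po.kah _).2 ⟨_, Ma.kc_pull hT hi.hol
    (fun z v hv => hi.imm z _ _ (at_chart z) (at_chart _) (hv.trans (map_zero _).symm)) hw⟩,
    h C i hi _ _ (push_eq hT F (hT.c1.deg _ _) t2),
    h C i hi _ _ (push_eq hT F (hT.ch.deg _ _ _) ?_),
    fun a ha => h C i hi _ _ (push_eq hT F (Ma.dg_pull hT _ ha) (F.hdg a ha))⟩
  have h1 : T.ps F.U F.E 1 + T.pull F.se.hol (T.ps V (VB.tan n V.X) 1) =
      T.c1 F.U F.Tb ^ 1 + T.pull F.sp.hol (T.ps F.K (VB.tan F.k F.K.X) 1) := F.ns.ses 1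
  rw [((Ma.rel_of vbl).ps T hT F.se.hol F.rel).2.2 1, h1, pow_one, map_add, t2,
    Ma.dem_pull hT F.sp, add_zero]

theorem ncp : NCP := by
  intro T hT n y V F Y π h
  refine ⟨?_, fun k b hb => ?_⟩
  · rintro ⟨u, u', h1, h2⟩ w hw
    obtain ⟨C, i, hi, hC, kC, -, -, h3⟩ := dgf T hT F (F.p u)
    have hg : HolM 1 y fun z => π (F.e (i z)) := h.comp (F.se.hol.comp hi.hol)
    rw [← h3 _ (Ma.dg_pull hT h (hT.po.deg hw)),
      ← hT.rg.pull_comp hi.hol F.se.hol (F.se.hol.comp hi.hol) fun _ => rfl,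
      ← hT.rg.pull_comp (F.se.hol.comp hi.hol) h hg fun _ => rfl]
    obtain ⟨z, rfl⟩ := hi.ex (y := u) rfl
    obtain ⟨z', rfl⟩ := hi.ex (y := u') h1.symm
    obtain ⟨x, hx⟩ : ∃ x, Df 1 y (fun z => π (F.e (i z))) x ≠ 0 := by
      by_contra k
      push Not at k
      exact h2 (const inferInstance hg k z' z)
    obtain ⟨v, hv⟩ := (hT.po.kah _).1 kC
    have h4 := hT.po.pos 1 0 x (hT.po.pull hg hw) hv rfl rfl (by
      have h5 := Submodule.finrank_lt (s := LinearMap.ker (Df 1 y (fun z => π (F.e (i z))) x))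
        fun k => hx (LinearMap.ker_eq_top.1 k)
      rw [Module.finrank_fin_fun] at h5
      change 1 + Module.finrank ℂ (LinearMap.ker (Df 1 y (fun z => π (F.e (i z))) x)) ≤ 1
      omega)
    rwa [pow_one, pow_zero, mul_one] at h4
  · have := F.cU
    obtain ⟨u⟩ : Nonempty F.U.X := inferInstance
    obtain ⟨C, i, hi, -, -, -, -, h3⟩ := dgf T hT F (F.p u)
    rw [← h3 _ (Ma.dg_pull hT h hb),
      ← hT.rg.pull_comp hi.hol F.se.hol (F.se.hol.comp hi.hol) fun _ => rfl,
      ← hT.rg.pull_comp (F.se.hol.comp hi.hol) h (holM_const (π (F.e u)))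
        fun z => k _ _ (hi.mem z).symm, Ma.pull_const hT _ hb, map_zero]

end Vale.Agent.P280Z.Rh
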