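import Vale.Agent.P280Z.Rh.Api
import Vale.Agent.P280Z.Sq.Defs

/-!
# P280Z, block Rh: from systems of families to bases; the induction
-/

open scoped Manifold ContDiff Topology Matrix
open Set Filter
open Vale.Agent.P272.K Vale.Agent.P285.H281.FD Vale.Agent.P281Z Vale.Agent.P280Z.Ma
open Vale.Agent.P277 (Bd.inv)
open Vale.Agent.P277Z.Slc (lin)
open Vale.Agent.P277.HD (pull)
open Vale.Agent.P280Z.Sq (Pf NSA SYS Sys)

noncomputable section

namespace Vale.Agent.P280Z.Rh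

variable {T : CT} {n : ℕ} {V : Mf n}

namespace BasH

theorem onto (F : Pf V) : Function.Surjective F.p := fun y => (F.cp y).nonempty

theorem cK (F : Pf V) : ConnectedSpace F.K.X :=
  have := F.cU
  (onto F).connectedSpace F.sp.hol.cont

theorem le (F : Pf V) : n ≤ F.k + 1 :=
  let ⟨x⟩ := F.cU.toNonempty
  (F.se.sbm x).le

theorem prj (hT : T.OK) (hF : Fano n V.X) (F : Pf V) {η : T.H V} (h : F.Pol T η) :
    ∃ L : Bd F.U.X, IsLB (F.k + 1) L ∧ Pos (F.k + 1) L := by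
  obtain ⟨lam, c, h1, h2, h3⟩ := h.ex
  have hX := ((fano_iff hT V).1 hF).2
  obtain ⟨M, hM⟩ := exists_nat_ge c
  obtain ⟨c', -, h4⟩ := hT.po.opn hX (-((2 * M : ℝ) • η))
    (neg_mem ((T.Ty V).smul_mem (nn_ty hT (kc_nn hT h.kc)) _))
    (by rw [CT.Dg, map_neg, map_smul, hT.po.deg h.kc])
  obtain ⟨N, hN⟩ := exists_nat_ge c'
  have hl := lb2 F.Q.lb (F.se.hol.lb (lb_inv (lb_can V)))
  refine ⟨lin ![F.Tb, pull F.e (Bd.inv (Bd.can n V.X))] ![1 - M, N], lb_lin hl _,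
    hT.kp _ _ (lb_lin hl _) ?_⟩
  have h5 := kc_add hT (kc_add hT h3 (nn_smul hT (nn_pull hT F.sp.hol h1) (sub_nonneg.2 hM)))
    (nn_pull hT F.se.hol (kc_add hT h4 (nn_smul hT (kc_nn hT hX) (sub_nonneg.2 hN))))
  rw [hT.c1.lin _ _ _ hl]
  simp only [Fin.sum_univ_two, Matrix.cons_val_zero, Matrix.cons_val_one]
  rw [hT.c1.pull F.se.hol _ (lb_inv (lb_can V)), c1_acan hT]
  have h6 : T.pull F.sp.hol lam = (2 : ℝ) • T.pull F.se.hol η - T.c1 F.U F.Tb := by
    rw [h2, sub_sub_cancel]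
  rw [h6] at h5
  simp only [map_add, map_smul, map_neg] at h5
  refine (congrArg (T.Kc F.U) ?_).mp h5
  push_cast
  module

/-- the abstract family -/
def fm (nsa : NSA) (rel : REL) (hT : T.OK) (hF : Fano n V.X) (F : Pf V) {η : T.H V}
    (h : F.Pol T η) {l : T.H V →ₗ[ℝ] ℝ} (hl : F.Deg T l)
    (hi : ∀ m E, IsRel F.e m E → F.Q.Inv E) : Fm T V :=
  have hm : F.k + 1 = n + (F.k + 1 - n) := (Nat.add_sub_cancel' (le F)).symm
  have hE := (rel.ex F.e _ F.se hm).choose_spec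
  have hN := nsa T hT F η h hF.1 _ hm _ hE
  { k := F.k, m := F.k + 1 - n, K := F.K, U := F.U, p := F.p, e := F.e, Tb := F.Tb
    E := (rel.ex F.e _ F.se hm).choose, η := η, dg := l, Q := F.Q, sp := F.sp, se := F.se
    dim := hm, rel := hE, inv := hi _ _ hE, ns := hN.1, kη := h.kc
    hdg := fun a ha => (congrArg (T.pull F.sp.hol) (hl a ha)).trans (AlgHom.commutes _ _)
    c1 := by
      obtain ⟨y⟩ := (cK F).toNonempty
      exact alg_inj hT F.kK y ((hl _ (dg_cX hT V)).symm.trans hN.2.1)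
    kU := F.kU, kK := F.kK, prj := prj hT hF F h, cU := F.cU, fp := F.cp, fe := F.ce
    tau := hN.2.2 }

theorem inv_ph (hT : T.OK) (F : Pf V) (a : T.H V) :
    T.dem F.sp.hol (T.pull F.se.hol a) = 0 ↔ F.ph T a = 0 :=
  ⟨pull_inj hT F.sp rfl (onto F) (cK F) F.kU, fun e =>
    (congrArg (T.pull F.sp.hol) e).trans (map_zero _)⟩

end BasH

open BasH

theorem bas_of (sys : SYS) (nsa : NSA) (rel : REL) (nrc : Cv.NRC) (nb : Cv.NBASE) (hT : Th T)
    (hn : 0 < n) (hV : Cls n V) : Nonempty (Bas T V) := by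
  have ok := hT.ok
  obtain ⟨N, r, δ, ρ, P, pt, F, l, S, hG⟩ := sys T ok hT.hrr V hn hV.1 (nrc n V hV.2)
  have hi : ∀ j m E, IsRel (F j).e m E → (F j).Q.Inv E := fun j => by
    obtain ⟨d, k, G, -, Q, sp, se, kU, kK, cU, cp, ce, e, h⟩ := hG j
    rw [e]
    exact h
  choose η hη using S.pol
  choose q Y π hQ using S.qt
  have hc := hV.1.1
  have hK : V.Kah := (ok.po.kah V).2 ⟨_, ((fano_iff ok V).1 hV.1).2⟩
  let G : Fin ρ → Fm T V := fun j => fm nsa rel ok hV.1 (F j) (hη j) (S.deg j) (hi j)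
  let Q : ∀ J : Set (Fin ρ), Qt G J := fun J =>
    { y := q J, d := n - q J, Y := Y J, π := π J, sub := (hQ J).sub
      dim := (Nat.add_sub_cancel' ((hQ J).sub.sbm (Classical.arbitrary _)).le).symm
      onto := fun y => ((hQ J).conn y).nonempty
      rel := (hQ J).rel, fib := (hQ J).conn, kah := (hQ J).kah
      fac := fun j hj => let ⟨g, h1, h2⟩ := (hQ J).fac j hj; ⟨g, h1, fun u => (h2 u).symm⟩
      s4 := fun a => ⟨fun h => (hQ J).s4 a fun j hj => (inv_ph ok (F j) a).1 (h j hj),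
        fun ⟨b, e⟩ j hj => (inv_ph ok (F j) a).2 (e ▸ (hQ J).ph j hj b)⟩ }
  choose H h1 h2 using fun j => S.onto fun i => if i = j then 1 else 0
  have sp : ∀ a, T.Dg V 1 a → a = ∑ j, l j a • H j := fun a ha => by
    refine sub_eq_zero.1 (S.inj _ ?_ fun i => ?_)
    · simp only [CT.Dg, map_sub, map_sum, map_smul, show ∀ j, T.pr V 1 (H j) = H j from h1]
      rw [ha]
    · simp [h2]
  have pH : ∀ j, ∃ w, T.Kc (Q {j}ᶜ).Y w ∧ H j = T.pull (Q {j}ᶜ).sub.hol w := fun j => by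
    obtain ⟨w, hw⟩ := (ok.po.kah _).1 (Q {j}ᶜ).kah
    have k1 := sp _ (dg_pull ok (Q {j}ᶜ).sub.hol (ok.po.deg hw))
    rw [Finset.sum_eq_single j (fun i _ hi => by
      rw [show l i _ = 0 from (Q {j}ᶜ).dg_pull ok hi (ok.po.deg hw), zero_smul]) (by simp)] at k1
    have k2 : 0 < l j (T.pull (Q {j}ᶜ).sub.hol w) := by
      refine ((G j).dg_nn ok (nn_pull ok _ hw)).lt_of_ne fun e => ?_
      rw [← show (0 : ℝ) = l j _ from e, zero_smul] at k1
      have k3 := pull_inj ok (Q {j}ᶜ).sub (Q {j}ᶜ).dim (Q {j}ᶜ).onto ((Q {j}ᶜ).conn hc) hK k1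
      have k4 := kc_vol ok hw ((Q {j}ᶜ).π (Classical.arbitrary _))
      have k5 : (Q {j}ᶜ).y < 1 := by
        by_contra k
        rw [k3, zero_pow (by omega), map_zero] at k4
        exact lt_irrefl _ k4
      have k6 := (Q {j}ᶜ).pow_zero' ok (h1 j) (fun i hi => (h2 j i).trans (if_neg hi)) k5
      have k7 := h2 j j
      rw [← pow_one (H j), k6, map_zero, if_pos rfl] at k7
      exact zero_ne_one k7
    refine ⟨(l j (T.pull (Q {j}ᶜ).sub.hol w))⁻¹ • w, ok.po.smul _ (inv_pos.2 k2) hw, ?_⟩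
    rw [map_smul, eq_inv_smul_iff₀ k2.ne', ← k1]
  have nn : ∀ j, T.Nn V (H j) := fun j => by
    obtain ⟨w, hw, e⟩ := pH j
    exact e ▸ nn_pull ok _ hw
  refine ⟨⟨Fin ρ, G, Q, H, nn, fun i j => h2 j i, sp, pH, fun a ha => (S.kc a ha).2,
    fun J b hb h => ?_, fun J => ⟨S.base J _ _ (hQ J), nb V _ _ _ (hQ J).sub (hQ J).conn
      (lb_inv (lb_can V)) hV.1.2 hV.2⟩⟩⟩
  obtain ⟨w, hw⟩ := (ok.po.kah _).1 (Q J).kah
  have k1 : ∀ᶠ ε in 𝓝[>] (0 : ℝ), ∀ j, 0 ≤ l j (T.pull (Q J).sub.hol (b - ε • w)) := by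
    refine eventually_all.2 fun j => ?_
    simp only [map_sub, map_smul, smul_eq_mul]
    by_cases hj : j ∈ J
    · rw [show l j _ = 0 from (Q J).dg_pull ok hj hb,
        show l j _ = 0 from (Q J).dg_pull ok hj (ok.po.deg hw)]
      simp
    · refine eventually_nhdsWithin_of_eventually_nhds (Eventually.mono ?_ fun _ => le_of_lt)
      refine ContinuousAt.eventually_lt continuousAt_const (by fun_prop) ?_
      rw [zero_mul, sub_zero]
      exact h j hj
  obtain ⟨ε, k2, k3⟩ := (k1.and self_mem_nhdsWithin).exists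
  have k4 : T.Dg (Q J).Y 1 (b - ε • w) := by rw [CT.Dg, map_sub, map_smul, hb, ok.po.deg hw]
  have k5 := nn_desc ok (Q J).sub (Q J).dim (Q J).onto ((Q J).conn hc) hK k4 (by
    rw [sp _ (dg_pull ok _ k4)]
    exact nn_sum ok _ fun j _ => nn_smul ok (nn j) (k2 j))
  have k6 := kc_add ok (ok.po.smul ε k3 hw) k5
  rwa [add_sub_cancel] at k6

/-- two classes of degree two are dependent if there is at most one family -/
theorem Bas.b2 (B : Bas T V) (h : Subsingleton B.J) : Cv.B2T T V := fun a b ha hb => by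
  cases isEmpty_or_nonempty B.J with
  | inl k => exact ⟨1, 0, Or.inl one_ne_zero, by rw [B.span a ha]; simp⟩
  | inr k =>
    obtain ⟨j⟩ := k
    have e : ∀ a, T.Dg V 1 a → a = (B.F j).dg a • B.H j := fun a ha =>
      (B.span a ha).trans (Fintype.sum_subsingleton _ j)
    by_cases h0 : (B.F j).dg a = 0
    · exact ⟨1, 0, Or.inl one_ne_zero, by rw [e a ha, h0]; simp⟩
    · refine ⟨(B.F j).dg b, -(B.F j).dg a, Or.inr (neg_ne_zero.2 h0), ?_⟩
      have k1 := e a ha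
      have k2 := e b hb
      generalize (B.F j).dg a = x at k1 ⊢
      generalize (B.F j).dg b = z at k2 ⊢
      rw [k1, k2]
      module

/-- **stage two** -/
theorem two_of (hT : Th T) (sys : SYS) (nsa : NSA) (rel : REL) (nrc : Cv.NRC) (nb : Cv.NBASE)
    (r1 : R1) (p1 : PONE) (p2 : PTWO) : Cv.TWO' := by
  intro n
  induction n using Nat.strong_induction_on with
  | _ n ih =>
    intro V hn hF hN
    have hI : IH n := fun m hm W hW => ih m hm W (by omega) hW.1 hW.2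
    rcases Nat.eq_zero_or_pos n with rfl | h0
    · exact fun e x _ v => ⟨fun _ _ => 0, ⟨fun _ _ _ => analyticAt_const,
        fun _ _ _ _ _ => Subsingleton.elim _ _⟩, Subsingleton.elim _ _⟩
    obtain ⟨B⟩ := bas_of sys nsa rel nrc nb hT h0 ⟨hF, hN⟩
    rcases subsingleton_or_nontrivial B.J with h | h
    · exact r1 T hT V hn hF (nrc n V hN) (B.b2 h)
    by_cases k : ∃ j, (B.F j).m = 0
    · exact p1 T hT V B hn hI ⟨hF, hN⟩ h k
    · exact p2 T hT V B hn hI ⟨hF, hN⟩ h fun j => Nat.pos_of_ne_zero fun e => k ⟨j, e⟩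

end Vale.Agent.P280Z.Rh
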