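import Vale.Agent.P280Z.Rh.Defs
import Vale.Agent.P280Z.Co.Kcp

/-!
# P280Z, block Rh: the property `KCP` of the concrete theory
-/

namespace Vale.Agent.P280Z.Rh

/-- **row KCP** -/
theorem kcp_ct : KCP Co.ct := fun hf e hs w hw => Co.kc_push hf e hs w hw

end Vale.Agent.P280Z.Rh
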