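import Vale.Agent.P280Z.Rh.Defs

/-!
# P280Z, block Rh: rows of the block BAS
-/

open scoped Manifold ContDiff Topology Matrix
open Set Filter
open Vale.Agent.P272.K Vale.Agent.P285.H281.FD Vale.Agent.P281Z

noncomputable section

namespace Vale.Agent.P280Z.Rh

/-- row DGF: the degree is the integral over one curve -/
def DGF : Prop := ∀ T : CT, T.OK → ∀ {n : ℕ} {V : Mf n} (F : Fm T V) (y : F.K.X),
  ∃ (C : Mf 1) (i : C.X → F.U.X) (hi : Emb 1 (F.k + 1) i (F.p ⁻¹' {y})), ConnectedSpace C.X ∧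
    C.Kah ∧ T.int C (T.pull hi.hol (T.c1 F.U F.Tb)) = 2 ∧
    T.int C (T.pull hi.hol (T.ps F.U (VB.tan (F.k + 1) F.U.X) 1)) = 2 ∧
    ∀ a, T.Dg V 1 a → T.int C (T.pull hi.hol (T.pull F.se.hol a)) = F.dg a

/-- row NCP: degrees of pull backs -/
def NCP : Prop := ∀ T : CT, T.OK → ∀ {n y : ℕ} {V : Mf n} (F : Fm T V) (Y : Mf y) (π : V.X → Y.X)
  (h : HolM n y π), ((∃ u u', F.p u = F.p u' ∧ π (F.e u) ≠ π (F.e u')) →
    ∀ w, T.Kc Y w → 0 < F.dg (T.pull h w)) ∧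
  ((∀ u u', F.p u = F.p u' → π (F.e u) = π (F.e u')) → ∀ b, T.Dg Y 1 b → F.dg (T.pull h b) = 0)

/-- row FANQ: the anticanonical degree of the image curves -/
def FANQ : Prop := ∀ T : CT, T.OK → ∀ {n y : ℕ} {V : Mf n} (F : Fm T V) (Y : Mf y)
  (π : V.X → Y.X) (h : Sub n y π), (∃ u u', F.p u = F.p u' ∧ π (F.e u) ≠ π (F.e u')) →
  2 ≤ F.dg (T.pull h.hol (T.ps Y (VB.tan y Y.X) 1))

end Vale.Agent.P280Z.Rh
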